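import Mathlib

/-!
Random monotone log-weights: jump points are spread uniformly inside dyadic blocks.
-/

noncomputable section

namespace Vale.Agent.P131

open MeasureTheory Finset Filter Set

/-- The parameter space. -/
abbrev Om : Type := ∀ i : ℕ × Bool, Fin (2 ^ (i.1 + 3))

/-- Haar probability measure on the parameter space. -/
def mu : Measure Om := Measure.addHaarMeasure ⊤

instance : IsProbabilityMeasure mu :=
  ⟨Measure.addHaarMeasure_self (K₀ := (⊤ : TopologicalSpace.PositiveCompacts Om))⟩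

instance : mu.IsAddHaarMeasure := by unfold mu; infer_instance

/-- The jump point of index `k` on the side `b`. -/
def thr (a : Om) (k : ℕ) (b : Bool) : ℤ := 2 ^ (k + 4) + ((a (k, b)).val : ℤ)

theorem thr_bounds (a : Om) (k : ℕ) (b : Bool) :
    (k : ℤ) < thr a k b ∧ thr a k b < 2 ^ (k + 5) := by
  have h1 : k < 2 ^ k := Nat.lt_two_pow_self
  have h2 : (a (k, b)).val < 2 ^ (k + 3) := (a (k, b)).isLt
  have h3 : (2 : ℕ) ^ k ≤ 2 ^ (k + 4) := Nat.pow_le_pow_right two_pos (by omega)
  have h4 : (2 : ℕ) ^ (k + 4) = 2 * 2 ^ (k + 3) := by ring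
  have h5 : (2 : ℕ) ^ (k + 5) = 4 * 2 ^ (k + 3) := by ring
  have e4 : ((2 : ℤ) ^ (k + 4)) = ((2 ^ (k + 4) : ℕ) : ℤ) := by push_cast; rfl
  have e5 : ((2 : ℤ) ^ (k + 5)) = ((2 ^ (k + 5) : ℕ) : ℤ) := by push_cast; rfl
  simp only [thr]
  rw [e4, e5]
  constructor <;> omega

/-- The jump `k` has been passed at `j`. -/
def passed (a : Om) (j : ℤ) (k : ℕ) : Prop := thr a k true ≤ j ∨ j < -thr a k false

instance (a : Om) (j : ℤ) : DecidablePred (passed a j) := fun k => by unfold passed; infer_instance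

/-- The number of jumps passed at `j`. -/
def cnt (a : Om) (j : ℤ) : ℕ := ((Finset.range j.natAbs).filter (passed a j)).card

theorem lt_of_passed {a : Om} {j : ℤ} {k : ℕ} (h : passed a j k) : k < j.natAbs := by
  have h1 := (thr_bounds a k true).1
  have h2 := (thr_bounds a k false).1
  rcases h with h | h <;> omega

theorem cnt_eq (a : Om) (j : ℤ) {N : ℕ} (hN : j.natAbs ≤ N) :
    cnt a j = ((Finset.range N).filter (passed a j)).card := by
  unfold cnt
  congr 1
  ext k
  simp only [Finset.mem_filter, Finset.mem_range]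
  exact ⟨fun h => ⟨h.1.trans_le hN, h.2⟩, fun h => ⟨lt_of_passed h.2, h.2⟩⟩

/-- The log-weights. -/
def wt (a : Om) (j : ℤ) : ℝ := 8 ^ cnt a j

theorem wt_pos (a : Om) (j : ℤ) : 0 < wt a j := by unfold wt; positivity

theorem wt_nonneg (a : Om) (j : ℤ) : 0 ≤ wt a j := (wt_pos a j).le

theorem measurable_wt (j : ℤ) : Measurable fun a => wt a j := by
  have hm : ∀ k, MeasurableSet {a : Om | passed a j k} := fun k => by
    have h1 : Measurable fun a : Om => thr a k true :=
      (Measurable.of_discrete (f := fun x : Fin (2 ^ (k + 3)) => (2 : ℤ) ^ (k + 4) + (x.val : ℤ))).comp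
        (measurable_pi_apply (k, true))
    have h2 : Measurable fun a : Om => thr a k false :=
      (Measurable.of_discrete (f := fun x : Fin (2 ^ (k + 3)) => (2 : ℤ) ^ (k + 4) + (x.val : ℤ))).comp
        (measurable_pi_apply (k, false))
    exact (h1 (MeasurableSet.of_discrete (s := {x | x ≤ j}))).union
      (h2 (MeasurableSet.of_discrete (s := {x | j < -x})))
  have hc : Measurable fun a : Om => cnt a j := by
    unfold cnt
    simp only [Finset.card_filter]
    exact Finset.measurable_sum _ fun k _ => Measurable.ite (hm k) measurable_const measurable_const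
  exact (measurable_from_top (f := fun n : ℕ => (8 : ℝ) ^ n)).comp hc

theorem cnt_le_right (a : Om) {i j : ℤ} (hi : 0 ≤ i) (hij : i ≤ j) : cnt a i ≤ cnt a j := by
  rw [cnt_eq a i (N := max i.natAbs j.natAbs) (le_max_left _ _),
    cnt_eq a j (N := max i.natAbs j.natAbs) (le_max_right _ _)]
  refine Finset.card_le_card fun k hk => ?_
  simp only [Finset.mem_filter] at hk ⊢
  refine ⟨hk.1, ?_⟩
  have h2 := (thr_bounds a k false).1
  rcases hk.2 with h | h
  · exact Or.inl (h.trans hij)
  · omega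

theorem cnt_le_left (a : Om) {i j : ℤ} (hi : i ≤ 0) (hij : j ≤ i) : cnt a i ≤ cnt a j := by
  rw [cnt_eq a i (N := max i.natAbs j.natAbs) (le_max_left _ _),
    cnt_eq a j (N := max i.natAbs j.natAbs) (le_max_right _ _)]
  refine Finset.card_le_card fun k hk => ?_
  simp only [Finset.mem_filter] at hk ⊢
  refine ⟨hk.1, ?_⟩
  have h2 := (thr_bounds a k true).1
  rcases hk.2 with h | h
  · omega
  · exact Or.inr (hij.trans_lt h)

theorem cnt_ge (a : Om) {j : ℤ} {k : ℕ} (hj : (2 : ℤ) ^ (k + 5) ≤ |j|) : k + 1 ≤ cnt a j := by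
  have h : Finset.range (k + 1) ⊆ (Finset.range (max j.natAbs (k + 1))).filter (passed a j) := by
    intro i hi
    rw [Finset.mem_range] at hi
    simp only [Finset.mem_filter, Finset.mem_range]
    refine ⟨lt_max_of_lt_right hi, ?_⟩
    have h1 := (thr_bounds a i true).2
    have h2 := (thr_bounds a i false).2
    have h3 : (2 : ℤ) ^ (i + 5) ≤ 2 ^ (k + 5) := pow_le_pow_right₀ one_le_two (by omega)
    unfold passed
    rcases le_total 0 j with h0 | h0
    · rw [abs_of_nonneg h0] at hj; left; omega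
    · rw [abs_of_nonpos h0] at hj; right; omega
  rw [cnt_eq a j (le_max_left _ (k + 1))]
  simpa using Finset.card_le_card h

theorem cnt_zero (a : Om) : cnt a 0 = 0 := by simp [cnt]

theorem wt_sublevel (a : Om) (ε : ℝ) (hε : 0 < ε) :
    ∀ᶠ s in atTop, ∃ p q : ℤ, ((q : ℝ) - p) ≤ ε * s ∧ ∀ j, wt a j < s ↔ p ≤ j ∧ j < q := by
  obtain ⟨k₀, hk₀⟩ := pow_unbounded_of_one_lt (128 / ε) (by norm_num : (1 : ℝ) < 4)
  filter_upwards [eventually_gt_atTop ((8 : ℝ) ^ (k₀ + 1))] with s hs
  have hs1 : 1 < s := lt_of_le_of_lt (one_le_pow₀ (by norm_num)) hs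
  have hex : ∃ k : ℕ, s ≤ (8 : ℝ) ^ (k + 1) := by
    obtain ⟨k, hk⟩ := pow_unbounded_of_one_lt s (by norm_num : (1 : ℝ) < 8)
    exact ⟨k, hk.le.trans (pow_le_pow_right₀ (by norm_num) (by omega))⟩
  set k := Nat.find hex
  have hk : s ≤ (8 : ℝ) ^ (k + 1) := Nat.find_spec hex
  have hkk : k₀ < k := by
    by_contra hle
    push Not at hle
    have : (8 : ℝ) ^ (k + 1) ≤ 8 ^ (k₀ + 1) := pow_le_pow_right₀ (by norm_num) (by omega)
    linarith
  have hlt : (8 : ℝ) ^ k < s := by
    have h := Nat.find_min hex (m := k - 1) (by omega)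
    rw [show k - 1 + 1 = k by omega] at h
    exact not_le.1 h
  have hge : ∀ j : ℤ, (2 : ℤ) ^ (k + 5) ≤ |j| → s ≤ wt a j := fun j hj =>
    hk.trans (pow_le_pow_right₀ (by norm_num) (cnt_ge a hj))
  have h0 : wt a 0 < s := by simpa [wt, cnt_zero] using hs1
  have hq : ∃ n : ℕ, s ≤ wt a n := ⟨2 ^ (k + 5), hge _ (by simp)⟩
  have hp : ∃ n : ℕ, s ≤ wt a (-(n : ℤ)) := ⟨2 ^ (k + 5), hge _ (by simp)⟩
  refine ⟨-(Nat.find hp : ℤ) + 1, Nat.find hq, ?_, fun j => ?_⟩
  · have b1 : Nat.find hq ≤ 2 ^ (k + 5) := Nat.find_le (hge _ (by simp))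
    have b2 : Nat.find hp ≤ 2 ^ (k + 5) := Nat.find_le (hge _ (by simp))
    have b1' : ((Nat.find hq : ℕ) : ℝ) ≤ 2 ^ (k + 5) := by exact_mod_cast b1
    have b2' : ((Nat.find hp : ℕ) : ℝ) ≤ 2 ^ (k + 5) := by exact_mod_cast b2
    have hb : (128 : ℝ) ≤ ε * 4 ^ k := by
      have h4 : (4 : ℝ) ^ k₀ ≤ 4 ^ k := pow_le_pow_right₀ (by norm_num) hkk.le
      rw [div_lt_iff₀ hε] at hk₀
      nlinarith
    have h8 : (8 : ℝ) ^ k = 4 ^ k * 2 ^ k := by rw [← mul_pow]; norm_num
    have h32 : (2 : ℝ) ^ (k + 5) = 32 * 2 ^ k := by ring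
    have h2pos : (0 : ℝ) < 2 ^ k := by positivity
    have h9 := mul_le_mul_of_nonneg_right hb h2pos.le
    have h10 := mul_le_mul_of_nonneg_left hlt.le hε.le
    rw [h8] at h10
    push_cast
    linarith
  · rcases le_total 0 j with hj | hj
    · obtain ⟨n, rfl⟩ := Int.eq_ofNat_of_zero_le hj
      refine ⟨fun h => ⟨?_, ?_⟩, fun h => ?_⟩
      · have : 1 ≤ Nat.find hp := (Nat.find_pos hp).2 (by simpa using h0)
        omega
      · by_contra hle
        push Not at hle
        have hle' : Nat.find hq ≤ n := by omega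
        have : wt a (Nat.find hq) ≤ wt a n := pow_le_pow_right₀ (by norm_num)
          (cnt_le_right a (by omega) (by omega))
        linarith [Nat.find_spec hq]
      · exact not_le.1 (Nat.find_min hq (by omega))
    · obtain ⟨n, rfl⟩ := Int.exists_eq_neg_ofNat hj
      refine ⟨fun h => ⟨?_, ?_⟩, fun h => ?_⟩
      · by_contra hle
        push Not at hle
        have hle' : Nat.find hp ≤ n := by omega
        have : wt a (-(Nat.find hp : ℤ)) ≤ wt a (-(n : ℤ)) := pow_le_pow_right₀ (by norm_num)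
          (cnt_le_left a (by omega) (by omega))
        linarith [Nat.find_spec hp]
      · have : 1 ≤ Nat.find hq := (Nat.find_pos hq).2 (by simpa using h0)
        omega
      · exact not_le.1 (Nat.find_min hp (by omega))

/-- The translation realising the shift of the weights. -/
def step : Om := fun i => if i.2 then 1 else -1

/-- Parameters at which adding `step` does not wrap around. -/
def good : Set Om := {a | ∀ i : ℕ × Bool, a i ≠ if i.2 then -1 else 0}

theorem measurableSet_good : MeasurableSet good := by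
  simp only [good, Set.ofPred_forall]
  exact MeasurableSet.iInter fun i =>
    measurable_pi_apply i (MeasurableSet.of_discrete (s := {x | x ≠ if i.2 then -1 else 0}))

theorem val_succ {n : ℕ} [NeZero n] {x : Fin n} (h : x ≠ -1) : (x + 1).val = x.val + 1 := by
  have hx := x.isLt
  by_cases hn : x.val + 1 = n
  · refine absurd (eq_neg_of_add_eq_zero_left (Fin.ext ?_)) h
    rw [Fin.val_add, Fin.val_one', Nat.add_mod_mod, hn, Nat.mod_self]
    simp
  · rw [Fin.val_add, Fin.val_one', Nat.add_mod_mod, Nat.mod_eq_of_lt (by omega)]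

theorem thr_step {a : Om} (ha : a ∈ good) (k : ℕ) :
    thr (a + step) k true = thr a k true + 1 ∧ thr (a + step) k false = thr a k false - 1 := by
  have h1 := ha (k, true)
  have h2 := ha (k, false)
  simp only [if_true, Bool.false_eq_true, if_false] at h1 h2
  have e1 : ((a (k, true) + 1).val : ℤ) = (a (k, true)).val + 1 := by
    exact_mod_cast val_succ h1
  have e2 : ((a (k, false) + -1).val : ℤ) = (a (k, false)).val - 1 := by
    have h := val_succ (x := a (k, false) + -1) fun h => h2 (by simpa using h)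
    rw [neg_add_cancel_right] at h
    omega
  simp only [thr, Pi.add_apply, step, if_true, Bool.false_eq_true, if_false]
  rw [e1, e2]
  constructor <;> ring

theorem cnt_step {a : Om} (ha : a ∈ good) (j : ℤ) : cnt (a + step) (j + 1) = cnt a j := by
  rw [cnt_eq _ _ (N := max (j + 1).natAbs j.natAbs) (le_max_left _ _),
    cnt_eq a j (N := max (j + 1).natAbs j.natAbs) (le_max_right _ _)]
  congr 1
  refine Finset.filter_congr fun k _ => ?_
  obtain ⟨h1, h2⟩ := thr_step ha k
  unfold passed
  rw [h1, h2]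
  omega

theorem wt_step {a : Om} (ha : a ∈ good) (j : ℤ) : wt (a + step) (j + 1) = wt a j := by
  rw [wt, wt, cnt_step ha]

/-- Finite translations. -/
def fin (N : ℕ) : Set Om := {g | ∀ i : ℕ × Bool, N ≤ i.1 → g i = 0}

theorem wt_translate {N : ℕ} {g : Om} (hg : g ∈ fin N) (a : Om) {j : ℤ}
    (hj : (2 : ℤ) ^ (N + 5) ≤ |j|) : wt (a + g) j = wt a j := by
  rw [wt, wt]
  congr 1
  rw [cnt_eq _ _ le_rfl, cnt_eq a j le_rfl]
  congr 1
  refine Finset.filter_congr fun k _ => ?_
  rcases lt_or_ge k N with hk | hk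
  · have e : (2 : ℤ) ^ (k + 5) ≤ 2 ^ (N + 5) := pow_le_pow_right₀ one_le_two (by omega)
    have b1 := (thr_bounds (a + g) k true).2
    have b2 := (thr_bounds (a + g) k false).2
    have b3 := (thr_bounds a k true).2
    have b4 := (thr_bounds a k false).2
    unfold passed
    rcases le_total 0 j with h0 | h0
    · rw [abs_of_nonneg h0] at hj; constructor <;> intro _ <;> left <;> omega
    · rw [abs_of_nonpos h0] at hj; constructor <;> intro _ <;> right <;> omega
  · unfold passed thr
    simp [Pi.add_apply, hg (k, true) hk, hg (k, false) hk]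

theorem cnt_le_natAbs (a : Om) (j : ℤ) : cnt a j ≤ j.natAbs :=
  (Finset.card_filter_le _ _).trans (Finset.card_range _).le

/-- The union of all finite translations. -/
def finAll : Set Om := ⋃ N, fin N

theorem countable_finAll : finAll.Countable := by
  refine Set.countable_iUnion fun N => Set.Finite.countable ?_
  refine Set.Finite.of_finite_image (f := fun g (p : Fin N × Bool) => g (p.1.val, p.2))
    (Set.toFinite _) fun g hg g' hg' h => ?_
  funext i
  rcases lt_or_ge i.1 N with hi | hi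
  · exact congrFun h (⟨i.1, hi⟩, i.2)
  · rw [hg i hi, hg' i hi]

theorem add_mem_finAll {g g' : Om} (h : g ∈ finAll) (h' : g' ∈ finAll) : g + g' ∈ finAll := by
  obtain ⟨N, hN⟩ := Set.mem_iUnion.1 h
  obtain ⟨N', hN'⟩ := Set.mem_iUnion.1 h'
  refine Set.mem_iUnion.2 ⟨max N N', fun i hi => ?_⟩
  rw [Pi.add_apply, hN i (le_of_max_le_left hi), hN' i (le_of_max_le_right hi), add_zero]

theorem neg_mem_finAll {g : Om} (h : g ∈ finAll) : -g ∈ finAll := by
  obtain ⟨N, hN⟩ := Set.mem_iUnion.1 h
  exact Set.mem_iUnion.2 ⟨N, fun i hi => by rw [Pi.neg_apply, hN i hi, neg_zero]⟩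

theorem dense_finAll : Dense finAll := fun a => by
  refine mem_closure_of_tendsto
    (f := fun (N : ℕ) (i : ℕ × Bool) => if i.1 < N then a i else 0) (b := atTop) ?_ ?_
  · rw [tendsto_pi_nhds]
    intro i
    refine tendsto_const_nhds.congr' ?_
    filter_upwards [eventually_gt_atTop i.1] with N hN
    rw [if_pos hN]
  · exact Eventually.of_forall fun N => Set.mem_iUnion.2 ⟨N, fun i hi => if_neg (not_lt.2 hi)⟩

/-- Ergodicity of the finite translations. -/
theorem exists_translate_inter_pos {S U : Set Om} (hS : mu S ≠ 0) (hU : MeasurableSet U)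
    (hU0 : mu U ≠ 0) : ∃ N, ∃ g ∈ fin N, mu (S ∩ (fun a => a + g) ⁻¹' U) ≠ 0 := by
  set W : Set Om := ⋃ g ∈ finAll, (fun a => a + g) ⁻¹' U with hW
  have hWm : MeasurableSet W :=
    MeasurableSet.biUnion countable_finAll fun g _ => measurable_add_const g hU
  have hinv : ∀ h ∈ finAll, (fun a => h +ᵥ a) ⁻¹' W = W := fun h hh => by
    ext a
    simp only [hW, Set.mem_preimage, vadd_eq_add, Set.mem_iUnion, exists_prop]
    constructor
    · rintro ⟨g, hg, hm⟩
      exact ⟨h + g, add_mem_finAll hh hg, by rwa [show a + (h + g) = h + a + g by abel]⟩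
    · rintro ⟨g, hg, hm⟩
      exact ⟨-h + g, add_mem_finAll (neg_mem_finAll hh) hg,
        by rwa [show h + a + (-h + g) = a + g by abel]⟩
  have hconst := aeconst_of_dense_setOfPred_preimage_vadd_eq (μ := mu) (M := Om)
    hWm.nullMeasurableSet (dense_finAll.mono fun h hh => hinv h hh)
  have hUW : U ⊆ W := fun a ha => Set.mem_iUnion₂.2
    ⟨0, Set.mem_iUnion.2 ⟨0, fun i _ => rfl⟩, by simpa using ha⟩
  rcases eventuallyConst_set.1 hconst with h | h
  · by_contra hc
    push Not at hc
    apply hS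
    have h1 : mu (S ∩ W) = 0 := by
      rw [hW, Set.inter_iUnion₂]
      exact (measure_biUnion_null_iff countable_finAll).2 fun g hg => by
        obtain ⟨N, hN⟩ := Set.mem_iUnion.1 hg
        exact hc N g hN
    refine le_antisymm ((measure_mono_ae ?_).trans h1.le) zero_le
    filter_upwards [h] with a ha hx using ⟨hx, ha⟩
  · exact absurd (measure_mono_null hUW (by
      rw [measure_eq_zero_iff_ae_notMem]; exact h)) hU0

theorem measure_eq_coord (i : ℕ × Bool) (c : Fin (2 ^ (i.1 + 3))) :
    mu {a | a i = c} = ((2 ^ (i.1 + 3) : ℕ) : ENNReal)⁻¹ := by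
  have hall : ∀ d, mu {a | a i = d} = mu {a | a i = c} := fun d => by
    have hm : MeasurableSet {a : Om | a i = c} :=
      (measurableSet_singleton c).preimage (measurable_pi_apply i)
    rw [← measure_preimage_add_right mu (Pi.single i (c - d)) {a | a i = c}]
    congr 1
    ext a
    simp only [Set.mem_preimage, Set.mem_ofPred_eq, Pi.add_apply, Pi.single_eq_same]
    constructor
    · intro h; rw [h, add_sub_cancel]
    · intro h; exact add_right_cancel (h.trans (add_sub_cancel d c).symm)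
  have hsum : ∑ d, mu {a : Om | a i = d} = 1 := by
    have hpre := sum_measure_preimage_singleton (μ := mu) (Finset.univ : Finset (Fin (2 ^ (i.1 + 3))))
      (f := fun a : Om => a i) fun d _ => (measurableSet_singleton d).preimage (measurable_pi_apply i)
    simpa [Set.preimage] using hpre
  rw [Finset.sum_congr rfl (fun d _ => hall d), Finset.sum_const, Finset.card_univ,
    Fintype.card_fin, nsmul_eq_mul] at hsum
  exact ENNReal.eq_inv_of_mul_eq_one_left (by rw [mul_comm]; exact hsum)

theorem good_ne_zero : mu good ≠ 0 := by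
  intro h0
  have h1 : mu goodᶜ = 1 := (prob_compl_eq_one_iff measurableSet_good).2 h0
  have h2 : mu goodᶜ ≤ ∑' i : ℕ × Bool, ((2 ^ (i.1 + 3) : ℕ) : ENNReal)⁻¹ := by
    refine le_trans (le_trans (measure_mono ?_) (measure_iUnion_le _))
      (le_of_eq (tsum_congr fun i => measure_eq_coord i (if i.2 then -1 else 0)))
    intro a ha
    simp only [good, Set.mem_compl_iff, Set.mem_ofPred_eq, not_forall, not_not] at ha
    exact Set.mem_iUnion.2 ha
  have h3 : (∑' i : ℕ × Bool, ((2 ^ (i.1 + 3) : ℕ) : ENNReal)⁻¹) = 2⁻¹ := by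
    rw [ENNReal.tsum_prod' (f := fun i : ℕ × Bool => ((2 ^ (i.1 + 3) : ℕ) : ENNReal)⁻¹)]
    calc (∑' (k : ℕ) (_ : Bool), ((2 ^ (k + 3) : ℕ) : ENNReal)⁻¹)
        = ∑' k : ℕ, 2 * ((2⁻¹ : ENNReal) ^ k * (2⁻¹) ^ 3) := tsum_congr fun k => by
          rw [tsum_bool, ← two_mul, ← pow_add, ← ENNReal.inv_pow]; norm_num
      _ = 2 * (2 * (2⁻¹ : ENNReal) ^ 3) := by
          rw [ENNReal.tsum_mul_left, ENNReal.tsum_mul_right, ENNReal.tsum_geometric,
            ENNReal.one_sub_inv_two, inv_inv]
      _ = (2 * 2⁻¹) * (2 * 2⁻¹) * 2⁻¹ := by ring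
      _ = 2⁻¹ := by rw [ENNReal.mul_inv_cancel two_ne_zero ENNReal.ofNat_ne_top, one_mul, one_mul]
  rw [h1, h3] at h2
  exact absurd h2 (not_le.2 (ENNReal.inv_lt_one.2 ENNReal.one_lt_two))

end Vale.Agent.P131
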