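import Vale.Agent.P131.Sector
import Vale.Agent.P131.Weights

/-!
The operator, three kinds of operators commuting with it, and the absence of nontrivial
hyperinvariant subspaces.
-/

noncomputable section

namespace Vale.Agent.P131

open MeasureTheory Filter Set
open scoped ComplexConjugate InnerProductSpace

/-- The measure on `Om × ℤ`. -/
abbrev nu : Measure (Om × ℤ) := mu.prod Measure.count

/-- The Hilbert space. -/
abbrev Hs : Type := Lp ℂ 2 nu

instance : Fact ((2 : ENNReal) ≠ ⊤) := ⟨ENNReal.ofNat_ne_top⟩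

/-- Data of a weighted composition operator. -/
structure Wc where
  w : Om × ℤ → ℂ
  φ : Om × ℤ → Om × ℤ
  C : ℝ
  meas : Measurable w
  bound : ∀ x, ‖w x‖ ≤ C
  mp : MeasurePreserving φ nu nu

namespace Wc

theorem memLp (d : Wc) (f : Hs) : MemLp (fun x => d.w x * f (d.φ x)) 2 nu := by
  refine MemLp.of_le_mul (c := d.C) ((Lp.memLp f).comp_measurePreserving d.mp) ?_ ?_
  · exact d.meas.aestronglyMeasurable.mul
      ((Lp.memLp f).comp_measurePreserving d.mp).aestronglyMeasurable
  · exact Eventually.of_forall fun x => by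
      rw [norm_mul]
      exact mul_le_mul_of_nonneg_right (d.bound x) (norm_nonneg _)

/-- A weighted composition operator. -/
def op (d : Wc) : Hs →L[ℂ] Hs :=
  LinearMap.mkContinuous
    { toFun := fun f => (d.memLp f).toLp _
      map_add' := fun f g => by
        rw [← MemLp.toLp_add]
        refine MemLp.toLp_congr _ _ ?_
        filter_upwards [d.mp.quasiMeasurePreserving.ae_eq_comp (Lp.coeFn_add f g)] with x hx
        simp only [Function.comp_apply, Pi.add_apply] at hx ⊢
        rw [hx, mul_add]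
      map_smul' := fun c f => by
        simp only [RingHom.id_apply]
        rw [← MemLp.toLp_const_smul]
        refine MemLp.toLp_congr _ _ ?_
        filter_upwards [d.mp.quasiMeasurePreserving.ae_eq_comp (Lp.coeFn_smul c f)] with x hx
        simp only [Function.comp_apply, Pi.smul_apply, smul_eq_mul] at hx ⊢
        rw [hx]; ring }
    d.C fun f => by
      rw [← Lp.norm_compMeasurePreserving f d.mp]
      refine Lp.norm_le_mul_norm_of_ae_le_mul ?_
      filter_upwards [MemLp.coeFn_toLp (d.memLp f), Lp.coeFn_compMeasurePreserving f d.mp]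
        with x h1 h2
      simp only [LinearMap.coe_mk, AddHom.coe_mk]
      rw [h1, h2, norm_mul]
      exact mul_le_mul_of_nonneg_right (d.bound x) (norm_nonneg _)

theorem coeFn_op (d : Wc) (f : Hs) :
    (d.op f : Om × ℤ → ℂ) =ᵐ[nu] fun x => d.w x * f (d.φ x) :=
  MemLp.coeFn_toLp (d.memLp f)

theorem commute (d e : Wc) (h : ∀ (x : Om × ℤ) (v : Om × ℤ → ℂ),
    d.w x * (e.w (d.φ x) * v (e.φ (d.φ x))) = e.w x * (d.w (e.φ x) * v (d.φ (e.φ x)))) :
    Commute d.op e.op := by
  apply ContinuousLinearMap.ext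
  intro f
  refine Lp.ext ?_
  filter_upwards [d.coeFn_op (e.op f), e.coeFn_op (d.op f),
    d.mp.quasiMeasurePreserving.ae_eq_comp (e.coeFn_op f),
    e.mp.quasiMeasurePreserving.ae_eq_comp (d.coeFn_op f)] with x h1 h2 h3 h4
  simp only [Function.comp_apply] at h3 h4
  simp only [mul_apply_eq_comp]
  rw [h1, h2, h3, h4]
  exact h x f

end Wc

theorem ae_forall_of_ae {p : Om × ℤ → Prop} (h : ∀ᵐ x ∂nu, p x) :
    ∀ᵐ a ∂mu, ∀ n, p (a, n) := by
  filter_upwards [Measure.ae_ae_of_ae_prod h] with a ha
  intro n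
  by_contra hn
  have h0 : Measure.count ({n} : Set ℤ) = 0 :=
    measure_mono_null (fun k hk => by rw [Set.mem_singleton_iff.1 hk]; exact hn) (ae_iff.1 ha)
  rw [Measure.count_singleton] at h0
  exact one_ne_zero h0

theorem measurable_of_int {β : Type*} [MeasurableSpace β] {f : Om × ℤ → β}
    (h : ∀ n, Measurable fun a => f (a, n)) : Measurable f :=
  measurable_from_prod_countable_left h

theorem mp_shift (g : Om) (c : ℤ) :
    MeasurePreserving (fun x : Om × ℤ => (x.1 + g, x.2 + c)) nu nu :=
  (measurePreserving_add_right mu g).prod (measurePreserving_add_right Measure.count c)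

/-- The data of `T`. -/
def tD : Wc where
  w x := (Real.exp (-wt x.1 (x.2 - 1)) : ℂ)
  φ x := (x.1 + 0, x.2 + -1)
  C := 1
  meas := Complex.measurable_ofReal.comp
    (Real.measurable_exp.comp (measurable_of_int fun n => measurable_wt (n - 1)).neg)
  bound x := by
    rw [Complex.norm_real, Real.norm_of_nonneg (Real.exp_pos _).le, Real.exp_le_one_iff, neg_nonpos]
    exact wt_nonneg _ _
  mp := mp_shift 0 (-1)

/-- The operator. -/
def T : Hs →L[ℂ] Hs := tD.op

/-- The data of a multiplication operator. -/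
def mulD (E : Set Om) (hE : MeasurableSet E) : Wc where
  w x := E.indicator (fun _ => 1) x.1
  φ x := x
  C := 1
  meas := (measurable_const.indicator hE).comp measurable_fst
  bound x := by
    by_cases h : x.1 ∈ E <;> simp [h]
  mp := MeasurePreserving.id nu

theorem commute_mulD (E : Set Om) (hE : MeasurableSet E) : Commute (mulD E hE).op T := by
  refine Wc.commute _ _ fun x v => ?_
  simp only [mulD, tD, add_zero]
  ring

/-- The exponent of the finite translation intertwiner. -/
def finExp (N : ℕ) (g : Om) (x : Om × ℤ) : ℝ :=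
  ∑ j ∈ Finset.Ico (-(2 : ℤ) ^ (N + 5)) (2 ^ (N + 5)),
    if j < x.2 then wt (x.1 + g) j - wt x.1 j else 0

theorem measurable_finExp (N : ℕ) (g : Om) : Measurable (finExp N g) := by
  refine measurable_of_int fun n => Finset.measurable_sum _ fun j _ => ?_
  by_cases h : j < n
  · simp only [h, if_true]
    exact ((measurable_wt j).comp (measurable_add_const g)).sub (measurable_wt j)
  · simp only [h, if_false]
    exact measurable_const

theorem finExp_le (N : ℕ) (g : Om) (x : Om × ℤ) :
    finExp N g x ≤ ((Finset.Ico (-(2 : ℤ) ^ (N + 5)) (2 ^ (N + 5))).card : ℝ) *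
      8 ^ 2 ^ (N + 5) := by
  refine (Finset.sum_le_card_nsmul _ _ ((8 : ℝ) ^ 2 ^ (N + 5)) fun j hj => ?_).trans
    (le_of_eq (nsmul_eq_mul _ _))
  rw [Finset.mem_Ico] at hj
  split_ifs
  · refine (sub_le_self _ (wt_nonneg _ _)).trans ?_
    refine pow_le_pow_right₀ (by norm_num) ((cnt_le_natAbs _ _).trans ?_)
    have e : ((2 ^ (N + 5) : ℕ) : ℤ) = (2 : ℤ) ^ (N + 5) := by push_cast; rfl
    have : (j.natAbs : ℤ) ≤ ((2 ^ (N + 5) : ℕ) : ℤ) := by
      rw [e]; omega
    exact_mod_cast this
  · positivity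

theorem finExp_succ {N : ℕ} {g : Om} (hg : g ∈ fin N) (a : Om) (n : ℤ) :
    finExp N g (a, n) = finExp N g (a, n - 1) + (wt (a + g) (n - 1) - wt a (n - 1)) := by
  unfold finExp
  simp only
  rw [← sub_eq_iff_eq_add', ← Finset.sum_sub_distrib]
  have e : ∀ j : ℤ, ((if j < n then wt (a + g) j - wt a j else 0) -
      if j < n - 1 then wt (a + g) j - wt a j else 0) =
      if j = n - 1 then wt (a + g) j - wt a j else 0 := fun j => by
    split_ifs <;> first | omega | simp
  rw [Finset.sum_congr rfl fun j _ => e j, Finset.sum_ite_eq']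
  split_ifs with hmem
  · rfl
  · rw [Finset.mem_Ico] at hmem
    rw [wt_translate hg a (by rcases abs_cases (n - 1) with h | h <;> omega), sub_self]

/-- The data of a finite translation intertwiner. -/
def finD (N : ℕ) (g : Om) : Wc where
  w x := (Real.exp (finExp N g x) : ℂ)
  φ x := (x.1 + g, x.2 + 0)
  C := Real.exp (((Finset.Ico (-(2 : ℤ) ^ (N + 5)) (2 ^ (N + 5))).card : ℝ) * 8 ^ 2 ^ (N + 5))
  meas := Complex.measurable_ofReal.comp (Real.measurable_exp.comp (measurable_finExp N g))
  bound x := by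
    rw [Complex.norm_real, Real.norm_of_nonneg (Real.exp_pos _).le]
    exact Real.exp_le_exp.2 (finExp_le N g x)
  mp := mp_shift g 0

theorem commute_finD {N : ℕ} {g : Om} (hg : g ∈ fin N) : Commute (finD N g).op T := by
  refine Wc.commute _ _ fun x v => ?_
  obtain ⟨a, n⟩ := x
  simp only [finD, tD, add_zero, ← sub_eq_add_neg]
  have e : Real.exp (finExp N g (a, n)) * Real.exp (-wt (a + g) (n - 1)) =
      Real.exp (-wt a (n - 1)) * Real.exp (finExp N g (a, n - 1)) := by
    rw [← Real.exp_add, ← Real.exp_add, finExp_succ hg]; congr 1; ring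
  have e' := congrArg (fun r : ℝ => (r : ℂ)) e
  simp only [Complex.ofReal_mul] at e'
  linear_combination (v (a + g, n - 1)) * e'

/-- The data of the backward shift intertwiner. -/
def backD : Wc where
  w x := good.indicator (fun _ => 1) x.1
  φ x := (x.1 + step, x.2 + 1)
  C := 1
  meas := (measurable_const.indicator measurableSet_good).comp measurable_fst
  bound x := by
    by_cases h : x.1 ∈ good <;> simp [h]
  mp := mp_shift step 1

theorem commute_backD : Commute backD.op T := by
  refine Wc.commute _ _ fun x v => ?_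
  obtain ⟨a, n⟩ := x
  simp only [backD, tD, add_zero, ← sub_eq_add_neg]
  by_cases h : a ∈ good
  · rw [Set.indicator_of_mem h, show n + 1 - 1 = (n - 1) + 1 by ring, wt_step h]
    ring
  · rw [Set.indicator_of_notMem h]
    ring

theorem coeFn_pow (m : ℕ) (f : Hs) :
    ((T ^ m) f : Om × ℤ → ℂ) =ᵐ[nu] fun x =>
      (Real.exp (-∑ t ∈ Finset.range m, wt x.1 (x.2 - m + t)) : ℂ) * f (x.1, x.2 - m) := by
  induction m with
  | zero => simp
  | succ m ih =>
    filter_upwards [tD.coeFn_op ((T ^ m) f), tD.mp.quasiMeasurePreserving.ae_eq_comp ih]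
      with x h1 h2
    simp only [Function.comp_apply] at h2
    rw [pow_succ', mul_apply_eq_comp]
    change (tD.op ((T ^ m) f) : Om × ℤ → ℂ) x = _
    rw [h1, h2]
    simp only [tD, add_zero, ← sub_eq_add_neg]
    rw [Finset.sum_range_succ, neg_add, Real.exp_add, Complex.ofReal_mul]
    have e1 : x.2 - ((m + 1 : ℕ) : ℤ) + (m : ℤ) = x.2 - 1 := by push_cast; ring
    have e2 : x.2 - ((m + 1 : ℕ) : ℤ) = x.2 - 1 - (m : ℤ) := by push_cast; ring
    rw [e1, e2]
    ring

theorem pair_integrable (f g : Hs) : Integrable (fun x => conj (f x) * g x) nu := by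
  refine (L2.integrable_inner (𝕜 := ℂ) f g).congr (Eventually.of_forall fun x => ?_)
  simp [mul_comm]

theorem sections_summable (f : Hs) : ∀ᵐ a ∂mu, Summable fun n : ℤ => ‖f (a, n)‖ ^ 2 := by
  have h : Integrable (fun x => ‖f x‖ ^ 2) nu :=
    (memLp_two_iff_integrable_sq_norm (Lp.memLp f).aestronglyMeasurable).1 (Lp.memLp f)
  filter_upwards [h.prod_right_ae] with a ha
  simpa using integrable_count_iff.1 ha

/-- Orthogonality to everything in the cyclic subspace of the commutant separates supports. -/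
theorem separated {M : Submodule ℂ Hs}
    (hM : ∀ A : Hs →L[ℂ] Hs, Commute A T → ∀ x ∈ M, A x ∈ M) {ξ η : Hs} (hξ : ξ ∈ M)
    (hη : η ∈ Mᗮ) :
    ∀ᵐ a ∂mu, ∀ i l : ℤ, ξ (a, i) ≠ 0 → η (a, l) ≠ 0 → l < i := by
  have hm : ∀ m : ℕ, ∀ᵐ a ∂mu, ∑' n : ℤ, conj (η (a, n + m)) * ξ (a, n) *
      (Real.exp (-∑ t ∈ Finset.range m, wt a (n + t)) : ℂ) = 0 := by
    intro m
    set f : Hs := (T ^ m) ξ with hf
    have hfM : f ∈ M := hM _ ((Commute.refl T).pow_left m) _ hξ
    have hF : Integrable (fun x => conj (η x) * f x) nu := pair_integrable η f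
    have hG : (fun a => ∫ n, conj (η (a, n)) * f (a, n) ∂Measure.count) =ᵐ[mu] 0 := by
      refine hF.integral_prod_left.ae_eq_zero_of_forall_setIntegral_eq_zero fun E hE _ => ?_
      have h1 : ⟪η, (mulD E hE).op f⟫_ℂ = 0 :=
        (Submodule.mem_orthogonal' M η).1 hη _ (hM _ (commute_mulD E hE) _ hfM)
      have h2 : ⟪η, (mulD E hE).op f⟫_ℂ =
          ∫ x, (E ×ˢ (Set.univ : Set ℤ)).indicator (fun x => conj (η x) * f x) x ∂nu := by
        rw [L2.inner_def]
        refine integral_congr_ae ?_
        filter_upwards [(mulD E hE).coeFn_op f] with x hx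
        rw [RCLike.inner_apply, hx]
        simp only [mulD]
        by_cases h : x.1 ∈ E <;> simp [h, mul_comm]
      rw [h2, integral_indicator (hE.prod MeasurableSet.univ),
        setIntegral_prod _ hF.integrableOn] at h1
      simpa using h1
    filter_upwards [hG, hF.prod_right_ae, ae_forall_of_ae (coeFn_pow m ξ)] with a ha hia hfa
    simp only [Pi.zero_apply] at ha
    rw [integral_countable hia] at ha
    rw [← ha, ← (Equiv.addRight (m : ℤ)).tsum_eq
      (fun n => (Measure.count : Measure ℤ).real {n} • (conj (η (a, n)) * f (a, n)))]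
    refine tsum_congr fun n => ?_
    simp only [Equiv.coe_addRight, measureReal_def, Measure.count_singleton, ENNReal.toReal_one, one_smul]
    rw [hf, hfa (n + m), add_sub_cancel_right]
    ring
  filter_upwards [ae_all_iff.2 hm, sections_summable ξ, sections_summable η] with a h h1 h2 i l hi hl
  exact supp_lt (wt_nonneg a) (wt_sublevel a) h1 h2 h hi hl

/-- The sections on which a vector is nonzero at level `k`. -/
def level (f : Hs) (k : ℤ) : Set Om := {a | f (a, k) ≠ 0}

theorem measurableSet_level (f : Hs) (k : ℤ) : MeasurableSet (level f k) :=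
  ((Lp.stronglyMeasurable f).measurable.comp measurable_prodMk_right)
    (measurableSet_singleton (0 : ℂ)).compl

theorem exists_level {f : Hs} (hf : f ≠ 0) : ∃ k, mu (level f k) ≠ 0 := by
  by_contra! hc
  apply hf
  refine Lp.ext ((?_ : (f : Om × ℤ → ℂ) =ᵐ[nu] 0).trans (Lp.coeFn_zero ℂ 2 nu).symm)
  have h : ∀ᵐ a ∂mu, ∀ k : ℤ, f (a, k) = 0 := by
    refine ae_all_iff.2 fun k => ?_
    rw [ae_iff]
    exact hc k
  refine (Measure.ae_prod_iff_ae_ae ?_).2 (h.mono fun a ha => Eventually.of_forall ha)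
  exact (Lp.stronglyMeasurable f).measurable (measurableSet_singleton 0)

theorem no_hyperinvariant {M : Submodule ℂ Hs} (hMc : IsClosed (M : Set Hs))
    (hM : ∀ A : Hs →L[ℂ] Hs, Commute A T → ∀ x ∈ M, A x ∈ M) : M = ⊥ ∨ M = ⊤ := by
  by_contra hc
  push Not at hc
  have : CompleteSpace M := hMc.completeSpace_coe
  obtain ⟨ξ₀, hξ₀, hξ₀0⟩ := Submodule.exists_mem_ne_zero_of_ne_bot hc.1
  obtain ⟨η, hη, hη0⟩ := Submodule.exists_mem_ne_zero_of_ne_bot
    (p := Mᗮ) fun h => hc.2 (Submodule.orthogonal_eq_bot_iff.1 h)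
  obtain ⟨l₀, hl₀⟩ := exists_level hη0
  let P : ℤ → Prop := fun k => ∃ ξ ∈ M, mu (level ξ k) ≠ 0
  -- moving a vector of `M` by finite translations
  have move : ∀ {k : ℤ}, P k → ∀ {S : Set Om}, mu S ≠ 0 →
      ∃ ξ ∈ M, mu (S ∩ level ξ k) ≠ 0 := by
    rintro k ⟨ξ, hξ, hk⟩ S hS
    obtain ⟨N, g, hg, hpos⟩ := exists_translate_inter_pos hS (measurableSet_level ξ k) hk
    refine ⟨(finD N g).op ξ, hM _ (commute_finD hg) _ hξ, fun h0 => hpos ?_⟩
    refine measure_mono_null_ae ?_ h0
    filter_upwards [ae_forall_of_ae ((finD N g).coeFn_op ξ)] with a ha hx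
    refine ⟨hx.1, ?_⟩
    show ((finD N g).op ξ) (a, k) ≠ 0
    rw [ha k]
    simp only [finD, add_zero]
    exact mul_ne_zero (by exact_mod_cast (Real.exp_pos _).ne') hx.2
  have lt : ∀ k, P k → l₀ < k := by
    intro k hk
    obtain ⟨ξ, hξ, hpos⟩ := move hk hl₀
    obtain ⟨a, ha, hs⟩ : ∃ a, a ∈ level η l₀ ∩ level ξ k ∧
        ∀ i l : ℤ, ξ (a, i) ≠ 0 → η (a, l) ≠ 0 → l < i := by
      by_contra! hcon
      apply hpos
      refine measure_mono_null (fun a ha => ?_) (ae_iff.1 (separated hM hξ hη))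
      intro h
      obtain ⟨i, l, h1, h2, h3⟩ := hcon a ha
      exact absurd (h i l h1 h2) (not_lt.2 h3)
    exact hs k l₀ ha.2 ha.1
  have down : ∀ k, P k → P (k - 1) := by
    intro k hk
    have hS : mu ((fun a => a + (-step)) ⁻¹' good) ≠ 0 := by
      rw [measure_preimage_add_right]; exact good_ne_zero
    obtain ⟨ξ, hξ, hpos⟩ := move hk hS
    refine ⟨backD.op ξ, hM _ commute_backD _ hξ, fun h0 => hpos ?_⟩
    rw [← measure_preimage_add_right mu step]
    refine measure_mono_null_ae ?_ h0
    filter_upwards [ae_forall_of_ae (backD.coeFn_op ξ)] with a ha hx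
    obtain ⟨hg, hl⟩ := hx
    simp only [Set.mem_preimage, add_neg_cancel_right] at hg
    show (backD.op ξ) (a, k - 1) ≠ 0
    rw [ha (k - 1)]
    simp only [backD, sub_add_cancel, Set.indicator_of_mem hg, one_mul]
    exact hl
  obtain ⟨k₀, hk₀⟩ := exists_level hξ₀0
  have hall : ∀ n : ℕ, P (k₀ - n) := fun n => by
    induction n with
    | zero => simpa using ⟨ξ₀, hξ₀, hk₀⟩
    | succ n ih =>
      have := down _ ih
      rwa [show k₀ - ((n + 1 : ℕ) : ℤ) = k₀ - (n : ℤ) - 1 by push_cast; ring]
  have := lt _ (hall (k₀ - l₀).toNat)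
  omega

/-- The unit vector supported at level `n`. -/
def lev (n : ℤ) : Hs :=
  indicatorConstLp 2 ((MeasurableSet.univ : MeasurableSet (Set.univ : Set Om)).prod
    (measurableSet_singleton n)) (by
      rw [Measure.prod_prod, measure_univ, Measure.count_singleton, one_mul]
      exact ENNReal.one_ne_top) 1

theorem coeFn_lev (n : ℤ) :
    (lev n : Om × ℤ → ℂ) =ᵐ[nu] fun x => if x.2 = n then 1 else 0 := by
  refine indicatorConstLp_coeFn.trans (Eventually.of_forall fun x => ?_)
  by_cases h : x.2 = n <;> simp [h]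

theorem infiniteDimensional : ¬ FiniteDimensional ℂ Hs := by
  intro hfin
  have horth : Orthonormal ℂ lev := by
    refine orthonormal_iff_ite.2 fun i j => ?_
    rw [L2.inner_def, integral_congr_ae (g := fun x : Om × ℤ =>
      ((Set.univ : Set Om) ×ˢ ({i} : Set ℤ)).indicator (fun _ => if i = j then (1 : ℂ) else 0) x)]
    · rw [integral_indicator (MeasurableSet.univ.prod (measurableSet_singleton i)), setIntegral_const,
        measureReal_def, Measure.prod_prod, measure_univ, Measure.count_singleton]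
      simp
    · filter_upwards [coeFn_lev i, coeFn_lev j] with x hi hj
      rw [RCLike.inner_apply, hi, hj]
      by_cases h1 : x.2 = i <;> simp [h1]
  have : Finite ℤ := horth.linearIndependent.finite
  exact not_finite ℤ

theorem T_ne_scalar (c : ℂ) : T ≠ c • (1 : Hs →L[ℂ] Hs) := by
  intro hT
  have h : T (lev 0) = c • lev 0 := by rw [hT]; rfl
  have h' := congrArg (fun f : Hs => (f : Om × ℤ → ℂ)) h
  have hae : (T (lev 0) : Om × ℤ → ℂ) =ᵐ[nu] fun x => c • (if x.2 = 0 then (1 : ℂ) else 0) := by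
    rw [h']
    filter_upwards [Lp.coeFn_smul c (lev 0), coeFn_lev 0] with x h1 h2
    rw [h1, Pi.smul_apply, h2]
  have hall := (ae_forall_of_ae hae).and ((ae_forall_of_ae (tD.coeFn_op (lev 0))).and
    (ae_forall_of_ae (tD.mp.quasiMeasurePreserving.ae_eq_comp (coeFn_lev 0))))
  obtain ⟨a, h1, h2, h3⟩ := hall.exists
  have e1 := h1 1
  have e2 := h2 1
  have e3 := h3 1
  simp only [Function.comp_apply] at e3
  rw [T, e2] at e1
  simp only [e3] at e1
  simp [tD] at e1

end Vale.Agent.P131
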