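import Mathlib

/-!
Orbit orthogonality for a bilateral weighted shift with monotone, superlinearly growing log-weights:
if `η` is orthogonal to the forward orbit of `ξ` then the support of `η` lies left of that of `ξ`.
-/

noncomputable section

namespace Vale.Agent.P131

open Finset Polynomial Filter
open scoped ComplexConjugate

/-- The `ℓ¹` norm of the coefficients. -/
def coeffSum (P : ℂ[X]) : ℝ := P.sum fun _ a => ‖a‖

theorem coeffSum_eq {P : ℂ[X]} {D : ℕ} (h : P.natDegree < D) :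
    coeffSum P = ∑ i ∈ range D, ‖P.coeff i‖ :=
  P.sum_over_range' (fun _ => norm_zero) D h

theorem coeffSum_le_mahler (P : ℂ[X]) :
    coeffSum P ≤ (2 : ℝ) ^ P.natDegree * P.mahlerMeasure := by
  rw [coeffSum_eq (Nat.lt_succ_self _)]
  refine (sum_le_sum fun i _ => norm_coeff_le_choose_mul_mahlerMeasure i P).trans ?_
  rw [← sum_mul]
  refine mul_le_mul_of_nonneg_right (le_of_eq ?_) P.mahlerMeasure_nonneg
  exact_mod_cast Nat.sum_range_choose P.natDegree

/-- Coefficient norms are nearly multiplicative in bounded degree. -/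
theorem coeffSum_mul_le {P Q : ℂ[X]} {D : ℕ} (hP : P.natDegree ≤ D) (hQ : Q.natDegree ≤ D) :
    coeffSum P * coeffSum Q ≤ (4 : ℝ) ^ D * coeffSum (P * Q) := by
  have h0 : ∀ R : ℂ[X], 0 ≤ coeffSum R := fun R => sum_nonneg fun i _ => norm_nonneg _
  have hR : ∀ R : ℂ[X], R.natDegree ≤ D → coeffSum R ≤ (2 : ℝ) ^ D * R.mahlerMeasure :=
    fun R hR => (coeffSum_le_mahler R).trans (mul_le_mul_of_nonneg_right
      (pow_le_pow_right₀ one_le_two hR) R.mahlerMeasure_nonneg)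
  calc coeffSum P * coeffSum Q
      ≤ ((2 : ℝ) ^ D * P.mahlerMeasure) * ((2 : ℝ) ^ D * Q.mahlerMeasure) :=
        mul_le_mul (hR P hP) (hR Q hQ) (h0 Q)
          (mul_nonneg (by positivity) P.mahlerMeasure_nonneg)
    _ = (4 : ℝ) ^ D * (P * Q).mahlerMeasure := by
        rw [mahlerMeasure_mul, show (4 : ℝ) = 2 * 2 by norm_num, mul_pow]; ring
    _ ≤ _ := mul_le_mul_of_nonneg_left (mahlerMeasure_le_sum_norm_coeff _) (by positivity)

theorem tsum_comp_le {g : ℕ → ℝ} (hg : Summable g) (h0 : ∀ i, 0 ≤ g i) {e : ℕ → ℕ}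
    (he : Function.Injective e) : ∑' i, g (e i) ≤ ∑' i, g i :=
  (hg.comp_injective he).tsum_le_tsum_of_inj e he (fun _ _ => h0 _) (fun _ => le_rfl) hg

section OneSided

/-- Partial sums of log-weights. -/
def psum (Z : ℕ → ℝ) (n : ℕ) : ℝ := ∑ j ∈ range n, Z j

/-- Sum over the window of length `m` starting at `n`. -/
def wsum (Z : ℕ → ℝ) (n m : ℕ) : ℝ := ∑ t ∈ range m, Z (n + t)

theorem psum_add (Z : ℕ → ℝ) (n m : ℕ) : psum Z (n + m) = psum Z n + wsum Z n m :=
  sum_range_add Z n m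

/-- The Taylor coefficients on the circle of radius `exp s`. -/
def tc (Z : ℕ → ℝ) (s : ℝ) (u : ℕ → ℂ) (i : ℕ) : ℂ :=
  u i * (Real.exp (s * i - psum Z i) : ℂ)

/-- The pairing over windows to the right of the origin. -/
def rest (Z : ℕ → ℝ) (u v : ℕ → ℂ) (m : ℕ) : ℂ :=
  ∑' i, u (i + 1) * v (i + 1 + m) * (Real.exp (-wsum Z (i + 1) m) : ℂ)

theorem norm_tc (Z : ℕ → ℝ) (s : ℝ) (u : ℕ → ℂ) (i : ℕ) :
    ‖tc Z s u i‖ = ‖u i‖ * Real.exp (s * i - psum Z i) := by
  rw [tc, norm_mul, Complex.norm_real, Real.norm_of_nonneg (Real.exp_pos _).le]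

variable {Z : ℕ → ℝ} {s K : ℝ} {q q' : ℕ}

theorem tc_summable (hs : 1 ≤ s) (hZ : ∀ j, 0 ≤ Z j) (hq : ∀ j, q' ≤ j → 2 * s ≤ Z j)
    {u : ℕ → ℂ} (hu : ∀ i, ‖u i‖ ≤ K) (hK : 2 * K ≤ Real.exp s) :
    Summable (fun i => ‖tc Z s u i‖) ∧ ∑' i, ‖tc Z s u (i + (2 * q' + 1))‖ ≤ 1 := by
  have hK0 : 0 ≤ K := (norm_nonneg _).trans (hu 0)
  have hterm : ∀ i, ‖tc Z s u (i + (2 * q' + 1))‖ ≤ K * Real.exp (-s) * Real.exp (-1) ^ i := by
    intro i
    rw [norm_tc, mul_assoc, ← Real.exp_nat_mul, ← Real.exp_add]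
    refine mul_le_mul (hu _) (Real.exp_le_exp.2 ?_) (Real.exp_pos _).le hK0
    have h1 : (2 * s) * ((i + (q' + 1) : ℕ) : ℝ) ≤ psum Z (i + (2 * q' + 1)) := by
      rw [show i + (2 * q' + 1) = q' + (i + (q' + 1)) by omega, psum_add]
      refine le_add_of_nonneg_of_le (sum_nonneg fun j _ => hZ j) ?_
      rw [wsum]
      refine le_trans (le_of_eq ?_) (card_nsmul_le_sum _ _ (2 * s) fun j _ => hq _ (by omega))
      rw [card_range, nsmul_eq_mul, mul_comm]
    push_cast at h1 ⊢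
    have h2 : (i : ℝ) ≤ s * i := le_mul_of_one_le_left (Nat.cast_nonneg i) hs
    linarith
  have he : Real.exp (-1) ≤ 1 / 2 := by
    rw [Real.exp_neg, one_div]
    exact inv_anti₀ two_pos (by linarith [Real.add_one_le_exp 1])
  have hgeo := (summable_geometric_of_lt_one (Real.exp_pos (-1)).le (by linarith)).mul_left
    (K * Real.exp (-s))
  have hsum := hgeo.of_nonneg_of_le (fun i => norm_nonneg _) hterm
  refine ⟨(summable_nat_add_iff (2 * q' + 1)).1 hsum, (hsum.tsum_le_tsum hterm hgeo).trans ?_⟩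
  rw [tsum_mul_left, tsum_geometric_of_lt_one (Real.exp_pos (-1)).le (by linarith)]
  have h2 : (1 - Real.exp (-1))⁻¹ ≤ 2 := by
    rw [inv_le_comm₀ (by linarith) two_pos]; linarith
  calc K * Real.exp (-s) * (1 - Real.exp (-1))⁻¹ ≤ K * Real.exp (-s) * 2 :=
        mul_le_mul_of_nonneg_left h2 (by positivity)
    _ ≤ 1 := by
        rw [Real.exp_neg, mul_right_comm, mul_inv_le_iff₀ (Real.exp_pos s)]; linarith

/-- The windows to the right of the origin contribute at most a multiple of one factor. -/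
theorem rest_bound (hlo : ∀ j, j < q → Z j ≤ s + 1)
    (hhi : ∀ j, q ≤ j → s + 1 ≤ Z j)
    {u v : ℕ → ℂ} (hu2 : Summable fun i => ‖u i‖ ^ 2) (hv2 : Summable fun i => ‖v i‖ ^ 2)
    (hKu : ∑' i, ‖u i‖ ^ 2 ≤ K) (hKv : ∑' i, ‖v i‖ ^ 2 ≤ K) (hu : ∀ i, ‖u i‖ ≤ K)
    (hA : Summable fun i => ‖tc Z s v i‖) (M : ℕ) :
    ∑ m ∈ range M, Real.exp (s * m) * ‖rest Z u v m‖ ≤
      K * (q * Real.exp q) * (∑' i, ‖tc Z s v i‖) + 2 * K := by
  set t : ℕ → ℕ → ℝ := fun m i =>
    Real.exp (s * m) * (‖u (i + 1)‖ * ‖v (i + 1 + m)‖ * Real.exp (-wsum Z (i + 1) m)) with ht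
  have ht0 : ∀ m i, 0 ≤ t m i := fun m i => by positivity
  have hK0 : 0 ≤ K := (norm_nonneg _).trans (hu 0)
  have hbig : ∀ m i, q ≤ i + 1 →
      t m i ≤ Real.exp (-1) ^ m * ((‖u (i + 1)‖ ^ 2 + ‖v (i + 1 + m)‖ ^ 2) / 2) := by
    intro m i hi
    have h1 : (m : ℝ) * (s + 1) ≤ wsum Z (i + 1) m := by
      refine le_trans (le_of_eq ?_) (card_nsmul_le_sum _ _ (s + 1) fun j _ => hhi _ (by omega))
      rw [card_range, nsmul_eq_mul]
    simp only [ht]
    rw [mul_left_comm, ← Real.exp_nat_mul, ← Real.exp_add, mul_comm (Real.exp _)]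
    refine mul_le_mul ?_ (Real.exp_le_exp.2 (by linarith)) (Real.exp_pos _).le (by positivity)
    nlinarith [sq_nonneg (‖u (i + 1)‖ - ‖v (i + 1 + m)‖)]
  have hsm : ∀ m i, i + 1 ≤ q → t m i ≤ K * Real.exp q * ‖tc Z s v (i + 1 + m)‖ := by
    intro m i hi
    have h1 : psum Z (i + 1) - s * (i + 1 : ℕ) ≤ q := by
      have h : psum Z (i + 1) ≤ (i + 1 : ℕ) * (s + 1) := by
        refine (sum_le_card_nsmul _ _ (s + 1) fun j hj => hlo j ?_).trans (le_of_eq ?_)
        · have := mem_range.1 hj; omega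
        · rw [card_range, nsmul_eq_mul]
      have h' : ((i + 1 : ℕ) : ℝ) ≤ q := by exact_mod_cast hi
      nlinarith
    simp only [ht, norm_tc]
    calc Real.exp (s * m) * (‖u (i + 1)‖ * ‖v (i + 1 + m)‖ * Real.exp (-wsum Z (i + 1) m))
        = ‖u (i + 1)‖ * Real.exp (psum Z (i + 1) - s * (i + 1 : ℕ)) *
            (‖v (i + 1 + m)‖ * Real.exp (s * (i + 1 + m : ℕ) - psum Z (i + 1 + m))) := by
          have e : Real.exp (psum Z (i + 1) - s * (i + 1 : ℕ)) *
              Real.exp (s * (i + 1 + m : ℕ) - psum Z (i + 1 + m))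
              = Real.exp (s * m) * Real.exp (-wsum Z (i + 1) m) := by
            rw [← Real.exp_add, ← Real.exp_add, psum_add Z (i + 1) m]; push_cast
            congr 1; ring
          linear_combination (-(‖u (i + 1)‖ * ‖v (i + 1 + m)‖)) * e
      _ ≤ K * Real.exp q * _ := by
          refine mul_le_mul_of_nonneg_right ?_ (by positivity)
          exact mul_le_mul (hu _) (Real.exp_le_exp.2 h1) (Real.exp_pos _).le hK0
  have hus : Summable fun i => ‖u (i + 1)‖ ^ 2 := (summable_nat_add_iff 1).2 hu2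
  have hvs : ∀ m, Summable fun i => ‖v (i + 1 + m)‖ ^ 2 := fun m => by
    simpa only [add_assoc] using (summable_nat_add_iff (1 + m)).2 hv2
  have htail : ∀ m, Summable (fun i => t m (i + q)) ∧ ∑' i, t m (i + q) ≤ K * Real.exp (-1) ^ m := by
    intro m
    have hb := fun i => hbig m (i + q) (by omega)
    have hu' := (summable_nat_add_iff q).2 hus
    have hv' := (summable_nat_add_iff q).2 (hvs m)
    have hmaj := ((hu'.add hv').div_const 2).mul_left (Real.exp (-1) ^ m)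
    have hsum := hmaj.of_nonneg_of_le (fun i => ht0 _ _) hb
    refine ⟨hsum, (hsum.tsum_le_tsum hb hmaj).trans ?_⟩
    rw [tsum_mul_left, tsum_div_const, Summable.tsum_add hu' hv', mul_comm]
    refine mul_le_mul_of_nonneg_right ?_ (by positivity)
    have h1 : ∑' i, ‖u (i + q + 1)‖ ^ 2 ≤ K := by
      refine le_trans ?_ hKu
      exact tsum_comp_le hu2 (fun i => by positivity) (e := fun i => i + q + 1)
        (fun a b h => by simpa using h)
    have h2 : ∑' i, ‖v (i + q + 1 + m)‖ ^ 2 ≤ K := by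
      refine le_trans ?_ hKv
      exact tsum_comp_le hv2 (fun i => by positivity) (e := fun i => i + q + 1 + m)
        (fun a b h => by simpa using h)
    linarith
  have hone : ∀ m : ℕ, Real.exp (s * m) * ‖rest Z u v m‖ ≤
      ∑ i ∈ range q, t m i + K * Real.exp (-1) ^ m := by
    intro m
    have hs2 : Summable (t m) := (summable_nat_add_iff q).1 (htail m).1
    have h1 : Real.exp (s * m) * ‖rest Z u v m‖ ≤ ∑' i, t m i := by
      rw [rest, ← Real.norm_of_nonneg (Real.exp_pos (s * m)).le, ← Complex.norm_real,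
        ← norm_mul, ← tsum_mul_left]
      refine (norm_tsum_le_tsum_norm ?_).trans (le_of_eq (tsum_congr ?_))
      · refine hs2.congr fun i => ?_
        simp only [ht, norm_mul, Complex.norm_real, Real.norm_of_nonneg (Real.exp_pos _).le]
      · intro i
        simp only [ht, norm_mul, Complex.norm_real, Real.norm_of_nonneg (Real.exp_pos _).le]
    rw [← hs2.sum_add_tsum_nat_add q] at h1
    linarith [(htail m).2]
  refine (sum_le_sum fun (m : ℕ) _ => hone m).trans ?_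
  rw [sum_add_distrib]
  refine add_le_add ?_ ?_
  · rw [sum_comm]
    have hA0 : 0 ≤ ∑' j, ‖tc Z s v j‖ := tsum_nonneg fun _ => norm_nonneg _
    refine (sum_le_card_nsmul _ _ (K * Real.exp q * ∑' j, ‖tc Z s v j‖) fun i hi => ?_).trans
      (le_of_eq ?_)
    · refine (sum_le_sum fun m _ => hsm m i (mem_range.1 hi)).trans ?_
      rw [← mul_sum]
      refine mul_le_mul_of_nonneg_left ?_ (by positivity)
      have hi' : Function.Injective fun m => i + 1 + m := fun a b h => by simpa using h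
      exact ((hA.comp_injective hi').sum_le_tsum _ fun _ _ => norm_nonneg _).trans
        (tsum_comp_le hA (fun _ => norm_nonneg _) hi')
    · rw [card_range, nsmul_eq_mul]; ring
  · rw [← mul_sum, mul_comm 2 K]
    refine mul_le_mul_of_nonneg_left ?_ hK0
    have he : Real.exp (-1) ≤ 1 / 2 := by
      rw [Real.exp_neg, one_div]
      exact inv_anti₀ two_pos (by linarith [Real.add_one_le_exp 1])
    refine (sum_le_sum fun m _ => pow_le_pow_left₀ (Real.exp_pos _).le he m).trans ?_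
    exact sum_geometric_two_le M

end OneSided

section Sector

/-- A bilateral sequence read to the left of the origin. -/
def leftSeq (ξ : ℤ → ℂ) (i : ℕ) : ℂ := ξ (-(i : ℤ))

theorem conv_le {a b : ℕ → ℝ} (ha : ∀ i, 0 ≤ a i) (hb : ∀ i, 0 ≤ b i) (hsa : Summable a)
    (hsb : Summable b) (M : ℕ) :
    ∑ m ∈ range M, ∑ i ∈ range (m + 1), a i * b (m - i) ≤ (∑' i, a i) * ∑' i, b i := by
  rw [Finset.sum_comm' (t' := range M) (s' := fun i => Finset.Ico i M)
    (by intro m i; simp only [mem_range, mem_Ico]; omega)]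
  refine (sum_le_sum fun i _ => ?_).trans ((sum_mul _ _ _).symm.le.trans
    (mul_le_mul_of_nonneg_right (hsa.sum_le_tsum _ fun j _ => ha j) (tsum_nonneg hb)))
  rw [sum_Ico_eq_sum_range, ← mul_sum]
  refine mul_le_mul_of_nonneg_left ?_ (ha i)
  simp only [Nat.add_sub_cancel_left]
  exact hsb.sum_le_tsum _ fun j _ => hb j

/-- The truncation of a sequence to a polynomial. -/
def trunc (f : ℕ → ℂ) (D : ℕ) : ℂ[X] := ∑ i ∈ range D, monomial i (f i)

theorem coeff_trunc (f : ℕ → ℂ) (D i : ℕ) : (trunc f D).coeff i = if i < D then f i else 0 := by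
  simp [trunc, coeff_monomial]

theorem natDegree_trunc (f : ℕ → ℂ) (D : ℕ) : (trunc f D).natDegree ≤ D - 1 :=
  natDegree_sum_le_of_forall_le _ _ fun i hi => (natDegree_monomial_le _).trans
    (by have := mem_range.1 hi; omega)

theorem coeffSum_trunc (f : ℕ → ℂ) {D : ℕ} (hD : 0 < D) :
    coeffSum (trunc f D) = ∑ i ∈ range D, ‖f i‖ := by
  rw [coeffSum_eq (D := D) (by have := natDegree_trunc f D; omega)]
  exact sum_congr rfl fun i hi => by rw [coeff_trunc, if_pos (mem_range.1 hi)]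

theorem conv_identity {Y : ℤ → ℝ} (hY0 : ∀ j, 0 ≤ Y j) {ξ η : ℤ → ℂ}
    (hξ : Summable fun n => ‖ξ n‖ ^ 2) (hη : Summable fun n => ‖η n‖ ^ 2) (s : ℝ) (m : ℕ)
    (h : ∑' n : ℤ, conj (η (n + m)) * ξ n *
      (Real.exp (-∑ t ∈ range m, Y (n + t)) : ℂ) = 0) :
    let ZL : ℕ → ℝ := fun j => Y (-1 - (j : ℤ))
    let ZR : ℕ → ℝ := fun j => Y (j : ℤ)
    ∑ i ∈ range (m + 1), tc ZL s (leftSeq ξ) i * tc ZR s (fun l => conj (η (l : ℤ))) (m - i) =
      -((Real.exp (s * m) : ℂ) * (rest ZR (fun i => ξ (i : ℤ)) (fun l => conj (η (l : ℤ))) m +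
        rest ZL (fun i => conj (η (-(i : ℤ)))) (leftSeq ξ) m)) := by
  intro ZL ZR
  have inj1 : Function.Injective fun i : ℕ => (i : ℤ) := Nat.cast_injective
  set f := tc ZL s (leftSeq ξ) with hf
  set g := tc ZR s (fun l => conj (η (l : ℤ))) with hg
  set x' : ℕ → ℂ := fun i => ξ (i : ℤ) with hx'
  set y' : ℕ → ℂ := fun i => conj (η (-(i : ℤ))) with hy'
  set x : ℕ → ℂ := leftSeq ξ with hx
  set y : ℕ → ℂ := fun l => conj (η (l : ℤ)) with hy
  have hZL : ZL = fun j : ℕ => Y (-1 - (j : ℤ)) := rfl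
  have hZR : ZR = fun j : ℕ => Y (j : ℤ) := rfl
  set F : ℤ → ℂ := fun n =>
    conj (η (n + m)) * ξ n * (Real.exp (-∑ t ∈ range m, Y (n + t)) : ℂ) with hF
  have hFs : Summable F := by
    refine Summable.of_norm_bounded (g := fun n => (‖η (n + m)‖ ^ 2 + ‖ξ n‖ ^ 2) / 2)
      (((hη.comp_injective (add_left_injective (m : ℤ))).add hξ).div_const 2) fun n => ?_
    simp only [hF, norm_mul, RCLike.norm_conj, Complex.norm_real,
      Real.norm_of_nonneg (Real.exp_pos _).le]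
    calc ‖η (n + m)‖ * ‖ξ n‖ * Real.exp (-∑ t ∈ range m, Y (n + t))
        ≤ ‖η (n + m)‖ * ‖ξ n‖ * 1 := mul_le_mul_of_nonneg_left
          (Real.exp_le_one_iff.2 (neg_nonpos.2 (sum_nonneg fun t _ => hY0 _))) (by positivity)
      _ ≤ _ := by nlinarith [sq_nonneg (‖η (n + m)‖ - ‖ξ n‖)]
  have hpos : Summable fun i : ℕ => F i := hFs.comp_injective inj1
  have hneg : Summable fun i : ℕ => F (-((i : ℤ) + 1)) :=
    hFs.comp_injective fun a b h => by simpa using h
  have h0 : ∑' n, F n = 0 := h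
  rw [tsum_of_nat_of_neg_add_one hpos hneg, hpos.tsum_eq_zero_add,
    ← hneg.sum_add_tsum_nat_add m] at h0
  have hc' : (Real.exp (s * m) : ℂ) * ∑ i ∈ range (m + 1), F (-(i : ℤ)) =
      ∑ i ∈ range (m + 1), f i * g (m - i) := by
    rw [mul_sum]
    refine sum_congr rfl fun i hi => ?_
    obtain ⟨d, rfl⟩ := Nat.exists_eq_add_of_le (Nat.lt_succ_iff.1 (mem_range.1 hi))
    have hw : ∑ t ∈ range (i + d), Y (-(i : ℤ) + t) = psum ZL i + psum ZR d := by
      rw [sum_range_add, psum, psum]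
      congr 1
      · rw [← sum_range_reflect]
        refine sum_congr rfl fun t ht => ?_
        have := mem_range.1 ht
        simp only [hZL]; congr 1; omega
      · refine sum_congr rfl fun t _ => ?_
        simp only [hZR]; congr 1; omega
    simp only [hF, hf, hg, tc, hx, hy, leftSeq, hw, Nat.add_sub_cancel_left]
    rw [show (-(i : ℤ) + ((i + d : ℕ) : ℤ)) = (d : ℤ) by omega]
    have e : Real.exp (s * (i + d : ℕ)) * Real.exp (-(psum ZL i + psum ZR d))
        = Real.exp (s * i - psum ZL i) * Real.exp (s * d - psum ZR d) := by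
      rw [← Real.exp_add, ← Real.exp_add]; push_cast; congr 1; ring
    have e' := congrArg (fun r : ℝ => (r : ℂ)) e
    simp only [Complex.ofReal_mul] at e'
    linear_combination (conj (η (d : ℤ)) * ξ (-(i : ℤ))) * e'
  have hr : rest ZR x' y m = ∑' i : ℕ, F ((i + 1 : ℕ) : ℤ) := by
    refine tsum_congr fun i => ?_
    simp only [hF, hx', hy, wsum, hZR]
    push_cast
    ring_nf
  have hl' : rest ZL y' x m = ∑' i : ℕ, F (-(((i + m : ℕ) : ℤ) + 1)) := by
    refine tsum_congr fun i => ?_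
    simp only [hF, hy', hx, leftSeq, wsum, hZL]
    rw [← sum_range_reflect (fun t : ℕ => Y (-(((i + m : ℕ) : ℤ) + 1) + t)) m,
      show (-(((i + m : ℕ) : ℤ) + 1) + (m : ℤ)) = -((i + 1 : ℕ) : ℤ) by omega,
      show (-(((i + m : ℕ) : ℤ) + 1)) = -((i + 1 + m : ℕ) : ℤ) by omega]
    congr 4
    refine sum_congr rfl fun t ht => ?_
    have := mem_range.1 ht
    congr 1; omega
  have hsplit : ∑ i ∈ range (m + 1), F (-(i : ℤ)) =
      F ((0 : ℕ) : ℤ) + ∑ i ∈ range m, F (-((i : ℤ) + 1)) := by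
    rw [sum_range_succ', add_comm]; push_cast; simp
  rw [← hc', hsplit, hr, hl']
  linear_combination (Real.exp (s * m) : ℂ) * h0

theorem trunc_mul_bound {f g : ℕ → ℂ} {D : ℕ} (hD0 : 0 < D) (hfs : Summable fun i => ‖f i‖)
    (hgs : Summable fun i => ‖g i‖) (hft : ∑' i, ‖f (i + D)‖ ≤ 1) (hgt : ∑' i, ‖g (i + D)‖ ≤ 1) :
    coeffSum (trunc f D * trunc g D) ≤
      ∑ m ∈ range (2 * D), ‖∑ i ∈ range (m + 1), f i * g (m - i)‖ +
      ((∑' i, ‖g i‖) + ∑' i, ‖f i‖) := by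
  set P := trunc f D with hP
  set Q := trunc g D with hQ
  set M := 2 * D with hM
  have hdeg : (P * Q).natDegree < M := by
    have h1 := natDegree_trunc f D
    have h2 := natDegree_trunc g D
    have h3 := natDegree_mul_le (p := P) (q := Q)
    rw [← hP] at h1; rw [← hQ] at h2
    omega
  rw [coeffSum_eq hdeg]
  set f' : ℕ → ℝ := fun i => if i < D then 0 else ‖f i‖ with hf'
  set g' : ℕ → ℝ := fun i => if i < D then 0 else ‖g i‖ with hg'
  have hpt : ∀ m, ‖(P * Q).coeff m‖ ≤ ‖∑ i ∈ range (m + 1), f i * g (m - i)‖ +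
      ∑ i ∈ range (m + 1), (f' i * ‖g (m - i)‖ + ‖f i‖ * g' (m - i)) := by
    intro m
    rw [coeff_mul, Nat.sum_antidiagonal_eq_sum_range_succ
      (fun i j => P.coeff i * Q.coeff j) m]
    refine (norm_le_norm_add_norm_sub' _ (∑ i ∈ range (m + 1), f i * g (m - i))).trans
      (add_le_add le_rfl ?_)
    rw [← sum_sub_distrib]
    refine (norm_sum_le _ _).trans (sum_le_sum fun i _ => ?_)
    simp only [hP, hQ, coeff_trunc, hf', hg']
    split_ifs <;> simp <;> positivity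
  refine (sum_le_sum fun m _ => hpt m).trans ?_
  rw [sum_add_distrib]
  refine add_le_add le_rfl ?_
  simp only [sum_add_distrib]
  have hf'0 : ∀ i, 0 ≤ f' i := fun i => by simp only [hf']; split_ifs <;> positivity
  have hg'0 : ∀ i, 0 ≤ g' i := fun i => by simp only [hg']; split_ifs <;> positivity
  have hf's : Summable f' := hfs.of_nonneg_of_le hf'0 fun i => by
    simp only [hf']; split_ifs <;> simp
  have hg's : Summable g' := hgs.of_nonneg_of_le hg'0 fun i => by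
    simp only [hg']; split_ifs <;> simp
  have tail : ∀ (φ : ℕ → ℂ) (φ' : ℕ → ℝ), (φ' = fun i => if i < D then 0 else ‖φ i‖) →
      Summable φ' → ∑' i, φ' i = ∑' i, ‖φ (i + D)‖ := by
    intro φ φ' e hs'
    rw [← hs'.sum_add_tsum_nat_add D]
    subst e
    rw [sum_eq_zero fun i hi => if_pos (mem_range.1 hi), zero_add]
    exact tsum_congr fun i => if_neg (by omega)
  refine add_le_add ?_ ?_
  · refine (conv_le hf'0 (fun i => norm_nonneg (g i)) hf's hgs M).trans ?_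
    rw [tail f f' hf' hf's]
    exact mul_le_of_le_one_left (tsum_nonneg fun _ => norm_nonneg _) hft
  · refine (conv_le (fun i => norm_nonneg (f i)) hg'0 hfs hg's M).trans ?_
    rw [tail g g' hg' hg's]
    exact mul_le_of_le_one_right (tsum_nonneg fun _ => norm_nonneg _) hgt

theorem quad_bound {a b c x : ℝ} (hc : 0 ≤ c) (ha : 2 ≤ a) (hb : 2 ≤ b)
    (h : a * b ≤ c * (a + b + 2)) (hxa : x ≤ a) (hxb : x ≤ b) : x ≤ 4 * c := by
  rcases le_total a b with hab | hab
  · have h1 : a * b ≤ (4 * c) * b := h.trans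
      ((mul_le_mul_of_nonneg_left (by linarith : a + b + 2 ≤ 4 * b) hc).trans (le_of_eq (by ring)))
    exact hxa.trans (le_of_mul_le_mul_right h1 (by linarith))
  · have h1 : a * b ≤ a * (4 * c) := h.trans
      ((mul_le_mul_of_nonneg_left (by linarith : a + b + 2 ≤ 4 * a) hc).trans (le_of_eq (by ring)))
    exact hxb.trans (le_of_mul_le_mul_left h1 (by linarith))

theorem four_pow_le (D : ℕ) : (4 : ℝ) ^ D ≤ Real.exp (2 * D) := by
  rw [mul_comm, Real.exp_nat_mul]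
  have h2 := Real.exp_one_gt_d9
  have : (4 : ℝ) ≤ Real.exp 2 := by
    rw [show (2 : ℝ) = 1 + 1 by norm_num, Real.exp_add]; nlinarith
  exact pow_le_pow_left₀ (by norm_num) this D

theorem final_bound {K E Af Ag a b x y z w : ℝ} {D : ℕ} (hK : 1 ≤ K) (hE : 1 ≤ E)
    (hAf : 0 ≤ Af) (hAg : 0 ≤ Ag) (hAfa : Af ≤ a + 1) (hAgb : Ag ≤ b + 1) (hy : y ≤ E) (hz : z ≤ E)
    (hmul : a * b ≤ (4 : ℝ) ^ D * w)
    (hw : w ≤ (K * y * Ag + 2 * K) + (K * z * Af + 2 * K) + (Ag + Af))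
    (ha : 2 ≤ a) (hb : 2 ≤ b) (hxa : x ≤ a) (hxb : x ≤ b) :
    x ≤ 24 * K * (4 : ℝ) ^ D * E := by
  have e1 : K * y * Ag ≤ K * E * Ag :=
    mul_le_mul_of_nonneg_right (mul_le_mul_of_nonneg_left hy (by linarith)) hAg
  have e2 : K * z * Af ≤ K * E * Af :=
    mul_le_mul_of_nonneg_right (mul_le_mul_of_nonneg_left hz (by linarith)) hAf
  have hKE : 1 ≤ K * E := one_le_mul_of_one_le_of_one_le hK hE
  have e3 : Af + Ag ≤ K * E * (Af + Ag) := le_mul_of_one_le_left (by linarith) hKE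
  have e4 : K ≤ K * E := le_mul_of_one_le_right (by linarith) hE
  have e5 : K * E * (Af + Ag) ≤ K * E * (a + b + 2) :=
    mul_le_mul_of_nonneg_left (by linarith) (by linarith)
  have e6 : 0 ≤ K * E * (a + b) := mul_nonneg (by linarith) (by linarith)
  have e7 : w ≤ 6 * (K * E) * (a + b + 2) := by linarith
  have h5 : a * b ≤ ((4 : ℝ) ^ D * (6 * (K * E))) * (a + b + 2) := by
    rw [mul_assoc]
    exact hmul.trans (mul_le_mul_of_nonneg_left e7 (by positivity))
  have := quad_bound (by positivity) ha hb h5 hxa hxb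
  linarith

theorem two_origin {Y : ℤ → ℝ} (hY0 : ∀ j, 0 ≤ Y j)
    (hY : ∀ ε : ℝ, 0 < ε → ∀ᶠ s in atTop, ∃ p q : ℤ, ((q : ℝ) - p) ≤ ε * s ∧
      ∀ j, Y j < s ↔ p ≤ j ∧ j < q)
    {ξ η : ℤ → ℂ} (hξ : Summable fun n => ‖ξ n‖ ^ 2) (hη : Summable fun n => ‖η n‖ ^ 2)
    (h : ∀ m : ℕ, ∑' n : ℤ, conj (η (n + m)) * ξ n *
      (Real.exp (-∑ t ∈ range m, Y (n + t)) : ℂ) = 0)
    {i₀ l₀ : ℕ} (hi₀ : 1 ≤ i₀) (hl₀ : 1 ≤ l₀) (hi : ξ (-(i₀ : ℤ)) ≠ 0) (hl : η l₀ ≠ 0) :
    False := by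
  set ZL : ℕ → ℝ := fun j => Y (-1 - (j : ℤ)) with hZL
  set ZR : ℕ → ℝ := fun j => Y (j : ℤ) with hZR
  set x : ℕ → ℂ := leftSeq ξ with hx
  set y : ℕ → ℂ := fun l => conj (η (l : ℤ)) with hy
  set x' : ℕ → ℂ := fun i => ξ (i : ℤ) with hx'
  set y' : ℕ → ℂ := fun i => conj (η (-(i : ℤ))) with hy'
  set K : ℝ := (∑' n, ‖ξ n‖ ^ 2) + (∑' n, ‖η n‖ ^ 2) + 1 with hKdef
  have hξ0 : 0 ≤ ∑' n, ‖ξ n‖ ^ 2 := tsum_nonneg fun n => by positivity
  have hη0 : 0 ≤ ∑' n, ‖η n‖ ^ 2 := tsum_nonneg fun n => by positivity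
  have hK1 : 1 ≤ K := by linarith
  have inj1 : Function.Injective fun i : ℕ => (i : ℤ) := Nat.cast_injective
  have inj2 : Function.Injective fun i : ℕ => -(i : ℤ) := fun a b h => by simpa using h
  have bnd : ∀ (ζ : ℤ → ℂ), Summable (fun n => ‖ζ n‖ ^ 2) → (∑' n, ‖ζ n‖ ^ 2) + 1 ≤ K →
      ∀ e : ℕ → ℤ, Function.Injective e → Summable (fun i => ‖ζ (e i)‖ ^ 2) ∧
        ∑' i, ‖ζ (e i)‖ ^ 2 ≤ K ∧ ∀ i, ‖ζ (e i)‖ ≤ K := by
    intro ζ hζ hle e he
    refine ⟨hζ.comp_injective he, ?_, fun i => ?_⟩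
    · have := (hζ.comp_injective he).tsum_le_tsum_of_inj e he (fun n _ => by positivity)
        (fun _ => le_rfl) hζ
      linarith
    · have := hζ.le_tsum (e i) fun n _ => by positivity
      nlinarith [sq_nonneg (‖ζ (e i)‖ - 1)]
  obtain ⟨hx2, hxK, hxb⟩ := bnd ξ hξ (by linarith) _ inj2
  obtain ⟨hx2', hxK', hxb'⟩ := bnd ξ hξ (by linarith) _ inj1
  obtain ⟨hy2, hyK, hyb⟩ := bnd (fun n => conj (η n)) (by simpa using hη)
    (by simp only [RCLike.norm_conj]; linarith) _ inj1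
  obtain ⟨hy2', hyK', hyb'⟩ := bnd (fun n => conj (η n)) (by simpa using hη)
    (by simp only [RCLike.norm_conj]; linarith) _ inj2
  set cf := ‖x i₀‖ * Real.exp (-psum ZL i₀) with hcf
  set cg := ‖y l₀‖ * Real.exp (-psum ZR l₀) with hcg
  have hc : 0 < min cf cg := lt_min (mul_pos (norm_pos_iff.2 hi) (Real.exp_pos _))
    (mul_pos (norm_pos_iff.2 (by simpa [hy] using hl)) (Real.exp_pos _))
  set C : ℝ := 24 * K * Real.exp (4 * (i₀ + l₀) + 2) with hC
  have hev : ∀ᶠ s in atTop, (1 ≤ s ∧ 2 * K ≤ Real.exp s ∧ Y 0 < s + 1 ∧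
      2 ≤ min cf cg * Real.exp s) ∧ C < min cf cg * Real.exp (s / 2) := by
    refine (((eventually_ge_atTop 1).and ((Real.tendsto_exp_atTop.eventually_ge_atTop _).and
      ((eventually_gt_atTop (Y 0 - 1)).and ?_))).mono fun s hs => ⟨hs.1, hs.2.1,
        by linarith [hs.2.2.1], hs.2.2.2⟩).and ?_
    · exact (Real.tendsto_exp_atTop.const_mul_atTop hc).eventually_ge_atTop _
    · exact ((Real.tendsto_exp_atTop.comp (tendsto_id.atTop_div_const two_pos)).const_mul_atTop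
        hc).eventually_gt_atTop _
  have hY' := hY (1 / 40) (by norm_num)
  obtain ⟨s, ⟨⟨hs1, hsK, hs0, hsc⟩, hsC⟩, ⟨p₁, q₁, hlen₁, hiff₁⟩, ⟨p₂, q₂, hlen₂, hiff₂⟩⟩ :=
    (hev.and ((tendsto_id.atTop_add tendsto_const_nhds (C := (1 : ℝ))).eventually hY' |>.and
      ((tendsto_id.const_mul_atTop two_pos).eventually hY'))).exists
  simp only [id_eq] at hlen₁ hiff₁ hlen₂ hiff₂
  obtain ⟨hp₁, hq₁⟩ := (hiff₁ 0).1 hs0
  obtain ⟨hp₂, hq₂⟩ := (hiff₂ 0).1 (by linarith)
  set q := (q₁ - p₁).toNat with hq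
  set q' := (q₂ - p₂).toNat + i₀ + l₀ with hq'
  set D := 2 * q' + 1 with hD
  have hL2 : ∀ j, q' ≤ j → 2 * s ≤ ZL j := fun j hj => by
    by_contra hc'
    have := (hiff₂ (-1 - (j : ℤ))).1 (lt_of_not_ge hc')
    omega
  have hR2 : ∀ j, q' ≤ j → 2 * s ≤ ZR j := fun j hj => by
    by_contra hc'
    have := (hiff₂ (j : ℤ)).1 (lt_of_not_ge hc')
    omega
  set qL := (-p₁).toNat with hqL
  set qR := q₁.toNat with hqR
  have hL1 : (∀ j, j < qL → ZL j ≤ s + 1) ∧ ∀ j, qL ≤ j → s + 1 ≤ ZL j := by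
    refine ⟨fun j hj => ((hiff₁ _).2 (by omega)).le, fun j hj => ?_⟩
    by_contra hc'
    have := (hiff₁ (-1 - (j : ℤ))).1 (lt_of_not_ge hc')
    omega
  have hR1 : (∀ j, j < qR → ZR j ≤ s + 1) ∧ ∀ j, qR ≤ j → s + 1 ≤ ZR j := by
    refine ⟨fun j hj => ((hiff₁ _).2 (by omega)).le, fun j hj => ?_⟩
    by_contra hc'
    have := (hiff₁ (j : ℤ)).1 (lt_of_not_ge hc')
    omega
  set f := tc ZL s x with hf
  set g := tc ZR s y with hg
  obtain ⟨hfs, hft⟩ := tc_summable (u := x) hs1 (fun j => hY0 _) hL2 hxb hsK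
  obtain ⟨hgs, hgt⟩ := tc_summable (u := y) hs1 (fun j => hY0 _) hR2 hyb hsK
  rw [← hf, ← hD] at hft
  rw [← hg, ← hD] at hgt
  rw [← hf] at hfs
  rw [← hg] at hgs
  set Af := ∑' i, ‖f i‖ with hAf
  set Ag := ∑' i, ‖g i‖ with hAg
  have key : ∀ m : ℕ, ∑ i ∈ range (m + 1), f i * g (m - i) =
      -((Real.exp (s * m) : ℂ) * (rest ZR x' y m + rest ZL y' x m)) :=
    fun m => conv_identity hY0 hξ hη s m (h m)
  set P := trunc f D with hP
  set Q := trunc g D with hQ
  have hD0 : 0 < D := by omega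
  set a := coeffSum P with ha
  set b := coeffSum Q with hb
  have hAfa : Af ≤ a + 1 := by
    rw [hAf, ha, hP, coeffSum_trunc f hD0, ← hfs.sum_add_tsum_nat_add D]
    linarith
  have hAgb : Ag ≤ b + 1 := by
    rw [hAg, hb, hQ, coeffSum_trunc g hD0, ← hgs.sum_add_tsum_nat_add D]
    linarith
  set M := 2 * D with hM
  have hPQ : coeffSum (P * Q) ≤ ∑ m ∈ range M, ‖∑ i ∈ range (m + 1), f i * g (m - i)‖
      + (Ag + Af) := trunc_mul_bound hD0 hfs hgs hft hgt
  have hconv : ∑ m ∈ range M, ‖∑ i ∈ range (m + 1), f i * g (m - i)‖ ≤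
      (K * (qR * Real.exp qR) * Ag + 2 * K) + (K * (qL * Real.exp qL) * Af + 2 * K) := by
    refine le_trans (sum_le_sum fun (m : ℕ) _ => (?_ : _ ≤ Real.exp (s * m) * ‖rest ZR x' y m‖
      + Real.exp (s * m) * ‖rest ZL y' x m‖)) ?_
    · rw [key, norm_neg, norm_mul, Complex.norm_real, Real.norm_of_nonneg (Real.exp_pos _).le,
        ← mul_add]
      exact mul_le_mul_of_nonneg_left (norm_add_le _ _) (Real.exp_pos _).le
    · rw [sum_add_distrib]
      exact add_le_add (rest_bound hR1.1 hR1.2 hx2' hy2 hxK' hyK hxb' hgs M)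
        (rest_bound hL1.1 hL1.2 hy2' hx2 hyK' hxK hyb' hfs M)
  have ha' : min cf cg * Real.exp s ≤ a := by
    rw [ha, hP, coeffSum_trunc f hD0]
    refine le_trans ?_ (single_le_sum (fun i _ => norm_nonneg (f i))
      (mem_range.2 (by omega : i₀ < D)))
    rw [hf, norm_tc, sub_eq_add_neg, Real.exp_add, mul_comm (Real.exp _) (Real.exp _), ← mul_assoc]
    refine mul_le_mul (min_le_left _ _) (Real.exp_le_exp.2 ?_) (Real.exp_pos _).le (by positivity)
    exact le_mul_of_one_le_right (by linarith) (by exact_mod_cast hi₀)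
  have hb' : min cf cg * Real.exp s ≤ b := by
    rw [hb, hQ, coeffSum_trunc g hD0]
    refine le_trans ?_ (single_le_sum (fun i _ => norm_nonneg (g i))
      (mem_range.2 (by omega : l₀ < D)))
    rw [hg, norm_tc, sub_eq_add_neg, Real.exp_add, mul_comm (Real.exp _) (Real.exp _), ← mul_assoc]
    refine mul_le_mul (min_le_right _ _) (Real.exp_le_exp.2 ?_) (Real.exp_pos _).le (by positivity)
    exact le_mul_of_one_le_right (by linarith) (by exact_mod_cast hl₀)
  have hqb : ∀ n : ℕ, n ≤ q → (n : ℝ) * Real.exp n ≤ Real.exp (2 * q) := by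
    intro n hn
    have h1 : (n : ℝ) ≤ Real.exp n := by linarith [Real.add_one_le_exp (n : ℝ)]
    have h2 : (n : ℝ) ≤ q := by exact_mod_cast hn
    calc (n : ℝ) * Real.exp n ≤ Real.exp n * Real.exp n :=
          mul_le_mul_of_nonneg_right h1 (Real.exp_pos _).le
      _ = Real.exp (2 * n) := by rw [two_mul, Real.exp_add]
      _ ≤ _ := Real.exp_le_exp.2 (by linarith)
  set E := Real.exp (2 * q) with hE
  have hE1 : 1 ≤ E := Real.one_le_exp (by positivity)
  have hAf0 : 0 ≤ Af := tsum_nonneg fun _ => norm_nonneg _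
  have hAg0 : 0 ≤ Ag := tsum_nonneg fun _ => norm_nonneg _
  have habound : min cf cg * Real.exp s ≤ 24 * K * (4 : ℝ) ^ D * E :=
    final_bound hK1 hE1 hAf0 hAg0 hAfa hAgb (hqb qR (by omega)) (hqb qL (by omega))
      (coeffSum_mul_le ((natDegree_trunc f D).trans (by omega))
        ((natDegree_trunc g D).trans (by omega))) (hPQ.trans (add_le_add hconv le_rfl))
      (hsc.trans ha') (hsc.trans hb') ha' hb'
  have h4 : (4 : ℝ) ^ D ≤ Real.exp (2 * D) := four_pow_le D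
  have hexp : (4 : ℝ) ^ D * E ≤ Real.exp (4 * (i₀ + l₀) + 2) * Real.exp (s / 2) := by
    refine (mul_le_mul_of_nonneg_right h4 (by positivity)).trans ?_
    rw [hE, ← Real.exp_add, ← Real.exp_add]
    refine Real.exp_le_exp.2 ?_
    have c1 : (q : ℝ) = (q₁ : ℝ) - p₁ := by
      have : ((q : ℕ) : ℤ) = q₁ - p₁ := by omega
      exact_mod_cast this
    have c2 : ((q₂ - p₂).toNat : ℝ) = (q₂ : ℝ) - p₂ := by
      have : (((q₂ - p₂).toNat : ℕ) : ℤ) = q₂ - p₂ := by omega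
      exact_mod_cast this
    simp only [hD, hq']
    push_cast
    rw [c1, c2]
    linarith
  have hfin : min cf cg * Real.exp (s / 2) * Real.exp (s / 2) ≤ C * Real.exp (s / 2) := by
    rw [mul_assoc, ← Real.exp_add, add_halves]
    calc min cf cg * Real.exp s ≤ 24 * K * ((4 : ℝ) ^ D * E) := by linarith
      _ ≤ 24 * K * (Real.exp (4 * (i₀ + l₀) + 2) * Real.exp (s / 2)) := by gcongr
      _ = C * Real.exp (s / 2) := by rw [hC]; ring
  exact absurd (le_of_mul_le_mul_right hfin (Real.exp_pos _)) (not_le.2 hsC)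

/-- If `η` is orthogonal to the forward orbit of `ξ`, the support of `η` lies strictly to the left
of the support of `ξ`. -/
theorem supp_lt {Y : ℤ → ℝ} (hY0 : ∀ j, 0 ≤ Y j)
    (hY : ∀ ε : ℝ, 0 < ε → ∀ᶠ s in atTop, ∃ p q : ℤ, ((q : ℝ) - p) ≤ ε * s ∧
      ∀ j, Y j < s ↔ p ≤ j ∧ j < q)
    {ξ η : ℤ → ℂ} (hξ : Summable fun n => ‖ξ n‖ ^ 2) (hη : Summable fun n => ‖η n‖ ^ 2)
    (h : ∀ m : ℕ, ∑' n : ℤ, conj (η (n + m)) * ξ n *
      (Real.exp (-∑ t ∈ range m, Y (n + t)) : ℂ) = 0)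
    {i l : ℤ} (hi : ξ i ≠ 0) (hl : η l ≠ 0) : l < i := by
  have close : ∀ i l : ℤ, ξ i ≠ 0 → η l ≠ 0 → l ≤ i + 1 := by
    intro i l hi hl
    by_contra hlt
    push Not at hlt
    refine two_origin (Y := fun j => Y (j + (i + 1))) (ξ := fun n => ξ (n + (i + 1)))
      (η := fun n => η (n + (i + 1))) (fun j => hY0 _) ?_
      (hξ.comp_injective (add_left_injective _)) (hη.comp_injective (add_left_injective _))
      (fun m => ?_) (i₀ := 1) (l₀ := (l - (i + 1)).toNat) le_rfl (by omega) (by simpa using hi) ?_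
    · intro ε hε
      refine (hY ε hε).mono fun s ⟨p, q, hlen, hiff⟩ => ⟨p - (i + 1), q - (i + 1), ?_, fun j => ?_⟩
      · push_cast; linarith
      · rw [hiff]; omega
    · have h1 := h m
      rw [← (Equiv.addRight (i + 1)).tsum_eq] at h1
      simp only [Equiv.coe_addRight] at h1
      refine Eq.trans (tsum_congr fun n => ?_) h1
      have e : ∀ t : ℤ, n + t + (i + 1) = n + (i + 1) + t := fun t => by ring
      simp only [e]
    · rw [show (((l - (i + 1)).toNat : ℤ) + (i + 1)) = l by omega]; exact hl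
  by_contra hle
  push Not at hle
  obtain ⟨i₀, hi₀, hmin⟩ := Int.exists_least_of_bdd (P := fun k => ξ k ≠ 0)
    ⟨l - 1, fun k hk => by have := close k l hk hl; omega⟩ ⟨i, hi⟩
  obtain ⟨l₀, hl₀, hmax⟩ := Int.exists_greatest_of_bdd (P := fun k => η k ≠ 0)
    ⟨i + 1, fun k hk => close i k hi hk⟩ ⟨l, hl⟩
  have hil : i₀ ≤ l₀ := ((hmin i hi).trans hle).trans (hmax l hl)
  have h1 := h (l₀ - i₀).toNat
  rw [tsum_eq_single i₀ fun n hn => ?_] at h1
  · rw [show i₀ + ((l₀ - i₀).toNat : ℤ) = l₀ by omega] at h1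
    have h2 := Real.exp_pos (-∑ t ∈ range (l₀ - i₀).toNat, Y (i₀ + t))
    simp [hi₀, hl₀] at h1
  · by_contra hne
    have hξn : ξ n ≠ 0 := fun h0 => hne (by rw [h0]; simp)
    have hηn : η (n + ((l₀ - i₀).toNat : ℤ)) ≠ 0 := fun h0 => hne (by rw [h0]; simp)
    have := hmin n hξn
    have := hmax _ hηn
    omega

end Sector

end Vale.Agent.P131
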